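import Vale.Agent.H61.P226.Cert

/-!
# One-dimensional Gaussian estimates for P226

`psi τ = E (g - τ)_+` for a standard Gaussian `g`.  We prove an exact formula on `[0, ∞)`,
a polynomial upper bound, an exponential-moment tail bound, and the two numerical
inequalities `τ * psi τ ≤ 81/800` (all `τ > 0`) and `τ * psi τ ≤ 391/5000` (all `τ ≥ 107/100`).
-/

open MeasureTheory ProbabilityTheory Real Set Filter Topology

namespace Vale.Agent.H61.P226

/-- `psi τ = E (g - τ)_+` for a standard Gaussian variable `g`. -/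
noncomputable def psi (τ : ℝ) : ℝ := ∫ s, max (s - τ) 0 ∂(gaussianReal 0 1)

theorem integral_Ioi_exp : ∫ s in Ioi (0:ℝ), rexp (-(1/2) * s^2) = √(2 * π) / 2 := by
  rw [integral_gaussian_Ioi]
  congr 2
  field_simp

theorem hasDerivAt_neg_exp (s : ℝ) :
    HasDerivAt (fun s : ℝ => -rexp (-(1/2) * s^2)) (s * rexp (-(1/2) * s^2)) s := by
  have h1 : HasDerivAt (fun s : ℝ => -(1/2) * s^2) (-(1/2) * (2 * s)) s := by
    have := (hasDerivAt_pow 2 s).const_mul (-(1/2) : ℝ)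
    refine this.congr_deriv ?_
    norm_num
  have h2 := (h1.exp).neg
  refine h2.congr_deriv ?_
  ring

theorem tendsto_neg_exp : Tendsto (fun s : ℝ => -rexp (-(1/2) * s^2)) atTop (𝓝 0) := by
  have h1 : Tendsto (fun s : ℝ => -(1/2) * s^2) atTop atBot := by
    have h0 : Tendsto (fun s : ℝ => s^2) atTop atTop := tendsto_pow_atTop two_ne_zero
    exact h0.const_mul_atTop_of_neg (by norm_num)
  have h2 := (Real.tendsto_exp_atBot.comp h1).neg
  simpa using h2

theorem integral_Ioi_mul_exp : ∫ s in Ioi (0:ℝ), s * rexp (-(1/2) * s^2) = 1 := by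
  have hint : IntegrableOn (fun s : ℝ => s * rexp (-(1/2) * s^2)) (Ioi 0) :=
    (integrable_mul_exp_neg_mul_sq (by norm_num : (0:ℝ) < 1/2)).integrableOn
  rw [integral_Ioi_of_hasDerivAt_of_tendsto' (fun s _ => hasDerivAt_neg_exp s) hint
    tendsto_neg_exp]
  simp

theorem pdf_eq (s : ℝ) : gaussianPDFReal 0 1 s = (√(2 * π))⁻¹ * rexp (-(1/2) * s^2) := by
  simp only [gaussianPDFReal, NNReal.coe_one, mul_one, sub_zero]
  congr 2
  ring

theorem integrable_exp_mul_sub (τ : ℝ) :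
    Integrable (fun s : ℝ => rexp (-(1/2) * s^2) * (s - τ)) := by
  have h1 := integrable_mul_exp_neg_mul_sq (by norm_num : (0:ℝ) < 1/2)
  have h2 := (integrable_exp_neg_mul_sq (by norm_num : (0:ℝ) < 1/2)).const_mul τ
  have h3 := h1.sub h2
  refine h3.congr (ae_of_all _ (fun s => ?_))
  simp only [Pi.sub_apply]
  ring

/-- `psi τ` as a Lebesgue integral over the half-line `(τ, ∞)`. -/
theorem psi_eq_integral_Ioi (τ : ℝ) :
    psi τ = (√(2 * π))⁻¹ * ∫ s in Ioi τ, rexp (-(1/2) * s^2) * (s - τ) := by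
  unfold psi
  rw [integral_gaussianReal_eq_integral_smul (one_ne_zero)]
  rw [← integral_const_mul]
  rw [← setIntegral_eq_integral_of_forall_compl_eq_zero (s := Ioi τ)]
  · apply setIntegral_congr_fun measurableSet_Ioi
    intro s hs
    have hs' : τ < s := hs
    simp only [pdf_eq, smul_eq_mul]
    rw [max_eq_left (by linarith)]
    ring
  · intro s hs
    have hs' : s ≤ τ := not_lt.mp hs
    simp only [smul_eq_mul]
    rw [max_eq_right (by linarith)]
    ring

/-- Exact formula for `psi` on `[0, ∞)`. -/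
theorem psi_eq (τ : ℝ) (hτ : 0 ≤ τ) :
    psi τ = (√(2 * π))⁻¹ * (1 + ∫ s in (0:ℝ)..τ, rexp (-(1/2) * s^2) * (τ - s)) - τ / 2 := by
  rw [psi_eq_integral_Ioi]
  have hint := integrable_exp_mul_sub τ
  have hsplit : ∫ s in Ioi (0:ℝ), rexp (-(1/2) * s^2) * (s - τ) =
      (∫ s in Ioc (0:ℝ) τ, rexp (-(1/2) * s^2) * (s - τ)) +
        ∫ s in Ioi τ, rexp (-(1/2) * s^2) * (s - τ) := by
    rw [← Ioc_union_Ioi_eq_Ioi hτ]
    exact setIntegral_union (Ioc_disjoint_Ioi le_rfl) measurableSet_Ioi hint.integrableOn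
      hint.integrableOn
  have hfull : ∫ s in Ioi (0:ℝ), rexp (-(1/2) * s^2) * (s - τ) = 1 - τ * (√(2 * π) / 2) := by
    have h1 : IntegrableOn (fun s : ℝ => s * rexp (-(1/2) * s^2)) (Ioi 0) :=
      (integrable_mul_exp_neg_mul_sq (by norm_num : (0:ℝ) < 1/2)).integrableOn
    have h2 : IntegrableOn (fun s : ℝ => τ * rexp (-(1/2) * s^2)) (Ioi 0) :=
      ((integrable_exp_neg_mul_sq (by norm_num : (0:ℝ) < 1/2)).const_mul τ).integrableOn
    have : ∀ s : ℝ, rexp (-(1/2) * s^2) * (s - τ) =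
        s * rexp (-(1/2) * s^2) - τ * rexp (-(1/2) * s^2) := fun s => by ring
    simp_rw [this]
    rw [integral_sub h1 h2, integral_const_mul, integral_Ioi_mul_exp, integral_Ioi_exp]
  have hneg : ∫ s in Ioc (0:ℝ) τ, rexp (-(1/2) * s^2) * (s - τ) =
      -∫ s in (0:ℝ)..τ, rexp (-(1/2) * s^2) * (τ - s) := by
    rw [intervalIntegral.integral_of_le hτ, ← integral_neg]
    congr 1
    funext s
    ring
  have hsq : (√(2 * π))⁻¹ * √(2 * π) = 1 := by
    apply inv_mul_cancel₀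
    positivity
  have : ∫ s in Ioi τ, rexp (-(1/2) * s^2) * (s - τ) =
      1 - τ * (√(2 * π) / 2) + ∫ s in (0:ℝ)..τ, rexp (-(1/2) * s^2) * (τ - s) := by
    linarith
  rw [this]
  have h3 : (√(2 * π))⁻¹ * (τ * (√(2 * π) / 2)) = τ / 2 := by
    calc (√(2 * π))⁻¹ * (τ * (√(2 * π) / 2)) = ((√(2 * π))⁻¹ * √(2 * π)) * (τ / 2) := by ring
      _ = τ / 2 := by rw [hsq, one_mul]
  linear_combination (-1 : ℝ) * h3

/-- `exp (-x) ≤ 1 - x + x^2/2 - x^3/6 + x^4/24` for `x ≥ 0`. -/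
theorem exp_neg_le_poly (x : ℝ) (hx : 0 ≤ x) :
    rexp (-x) ≤ 1 - x + x^2/2 - x^3/6 + x^4/24 := by
  have h1 := Real.sum_le_exp_of_nonneg hx 5
  have h2 : ∑ i ∈ Finset.range 5, x ^ i / (i.factorial : ℝ) = 1 + x + x^2/2 + x^3/6 + x^4/24 := by
    simp [Finset.sum_range_succ, Nat.factorial]
  rw [h2] at h1
  have hS : 0 < 1 + x + x^2/2 + x^3/6 + x^4/24 := by positivity
  have hprod : (1 - x + x^2/2 - x^3/6 + x^4/24) * (1 + x + x^2/2 + x^3/6 + x^4/24) =
      1 + x^6/72 + x^8/576 := by ring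
  have hp : 1 / (1 + x + x^2/2 + x^3/6 + x^4/24) ≤ 1 - x + x^2/2 - x^3/6 + x^4/24 := by
    rw [div_le_iff₀ hS, hprod]
    have : 0 ≤ x^6/72 + x^8/576 := by positivity
    linarith
  calc rexp (-x) = 1 / rexp x := by rw [Real.exp_neg]; simp
    _ ≤ 1 / (1 + x + x^2/2 + x^3/6 + x^4/24) := one_div_le_one_div_of_le hS h1
    _ ≤ _ := hp

theorem integral_poly (τ : ℝ) :
    ∫ s in (0:ℝ)..τ, (1 - s^2/2 + s^4/8 - s^6/48 + s^8/384) * (τ - s)
    = τ^2/2 - τ^4/24 + τ^6/240 - τ^8/2688 + τ^10/34560 := by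
  have h : ∀ s : ℝ, HasDerivAt (fun s : ℝ => τ * (s - s^3/6 + s^5/40 - s^7/336 + s^9/3456)
      - (s^2/2 - s^4/8 + s^6/48 - s^8/384 + s^10/3840))
      ((1 - s^2/2 + s^4/8 - s^6/48 + s^8/384) * (τ - s)) s := by
    intro s
    have h1 := ((((hasDerivAt_id s).sub ((hasDerivAt_pow 3 s).div_const 6)).add
        ((hasDerivAt_pow 5 s).div_const 40)).sub ((hasDerivAt_pow 7 s).div_const 336)).add
        ((hasDerivAt_pow 9 s).div_const 3456)
    have h2 := (((((hasDerivAt_pow 2 s).div_const 2).sub ((hasDerivAt_pow 4 s).div_const 8)).add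
        ((hasDerivAt_pow 6 s).div_const 48)).sub ((hasDerivAt_pow 8 s).div_const 384)).add
        ((hasDerivAt_pow 10 s).div_const 3840)
    have h3 := (h1.const_mul τ).sub h2
    refine HasDerivAt.congr_deriv h3 ?_
    norm_num
    ring
  rw [intervalIntegral.integral_eq_sub_of_hasDerivAt (fun s _ => h s)]
  · ring
  · apply Continuous.intervalIntegrable
    fun_prop

/-- Polynomial upper bound for `psi` on `[0, ∞)`. -/
theorem psi_le_poly (τ : ℝ) (hτ : 0 ≤ τ) :
    psi τ ≤ (√(2 * π))⁻¹ * (1 + (τ^2/2 - τ^4/24 + τ^6/240 - τ^8/2688 + τ^10/34560)) - τ / 2 := by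
  rw [psi_eq τ hτ, ← integral_poly τ]
  have hle : ∫ s in (0:ℝ)..τ, rexp (-(1/2) * s^2) * (τ - s) ≤
      ∫ s in (0:ℝ)..τ, (1 - s^2/2 + s^4/8 - s^6/48 + s^8/384) * (τ - s) := by
    apply intervalIntegral.integral_mono_on hτ
    · apply Continuous.intervalIntegrable
      fun_prop
    · apply Continuous.intervalIntegrable
      fun_prop
    · intro s hs
      have hs2 : 0 ≤ τ - s := by linarith [hs.2]
      have hb := exp_neg_le_poly (s^2/2) (by positivity)
      have he : rexp (-(1/2) * s^2) = rexp (-(s^2/2)) := by congr 1; ring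
      rw [he]
      have hp : 1 - s^2/2 + (s^2/2)^2/2 - (s^2/2)^3/6 + (s^2/2)^4/24 =
          1 - s^2/2 + s^4/8 - s^6/48 + s^8/384 := by ring
      rw [hp] at hb
      exact mul_le_mul_of_nonneg_right hb hs2
  have hpos : 0 ≤ (√(2 * π))⁻¹ := by positivity
  have := mul_le_mul_of_nonneg_left hle hpos
  linarith

theorem integrable_max_sub (τ : ℝ) :
    Integrable (fun s : ℝ => max (s - τ) 0) (gaussianReal 0 1) := by
  have h1 : Integrable (fun s : ℝ => s) (gaussianReal 0 1) := by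
    have := memLp_id_gaussianReal (μ := 0) (v := 1) 1
    have h : Integrable (id : ℝ → ℝ) (gaussianReal 0 1) :=
      memLp_one_iff_integrable.mp (by exact_mod_cast this)
    exact h
  have h2 : Integrable (fun s : ℝ => s - τ) (gaussianReal 0 1) := h1.sub (integrable_const τ)
  exact h2.pos_part

theorem psi_nonneg (τ : ℝ) : 0 ≤ psi τ :=
  integral_nonneg (fun _ => le_max_right _ _)

/-- Exponential-moment tail bound for `psi`. -/
theorem psi_le_exp (τ : ℝ) (hτ : 0 < τ) : psi τ ≤ rexp (-1 - τ^2/2) / τ := by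
  have hpt : ∀ s : ℝ, max (s - τ) 0 ≤ rexp (-τ^2 - 1) / τ * rexp (τ * s) := by
    intro s
    have h1 : rexp (-τ^2 - 1) / τ * rexp (τ * s) = rexp (τ * (s - τ) - 1) / τ := by
      rw [div_mul_eq_mul_div, ← Real.exp_add]
      congr 2
      ring
    rw [h1]
    apply max_le
    · rw [le_div_iff₀ hτ]
      have := Real.add_one_le_exp (τ * (s - τ) - 1)
      linarith
    · positivity
  have hint : Integrable (fun s : ℝ => rexp (-τ^2 - 1) / τ * rexp (τ * s)) (gaussianReal 0 1) :=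
    (integrable_exp_mul_gaussianReal τ).const_mul _
  have hm : ∫ s, rexp (τ * s) ∂(gaussianReal 0 1) = rexp (τ^2/2) := by
    have := congrFun (mgf_id_gaussianReal (μ := 0) (v := 1)) τ
    simp only [mgf, id, NNReal.coe_one, zero_mul, zero_add, one_mul] at this
    exact this
  calc psi τ ≤ ∫ s, rexp (-τ^2 - 1) / τ * rexp (τ * s) ∂(gaussianReal 0 1) :=
        integral_mono (integrable_max_sub τ) hint hpt
    _ = rexp (-τ^2 - 1) / τ * rexp (τ^2/2) := by rw [integral_const_mul, hm]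
    _ = rexp (-1 - τ^2/2) / τ := by
        rw [div_mul_eq_mul_div, ← Real.exp_add]
        congr 2
        ring

/-- A rational upper bound for `1 / √(2π)`. -/
theorem inv_sqrt_two_pi_le : (√(2 * π))⁻¹ ≤ 249339 / 625000 := by
  have hpi := Real.pi_gt_d6
  have h1 : (625000 / 249339 : ℝ) ≤ √(2 * π) := by
    apply Real.le_sqrt_of_sq_le
    norm_num
    linarith
  have h2 : (0:ℝ) < 625000 / 249339 := by norm_num
  calc (√(2 * π))⁻¹ ≤ (625000 / 249339 : ℝ)⁻¹ := inv_anti₀ h2 h1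
    _ = 249339 / 625000 := by norm_num

/-- For `τ ≥ 2`, `τ * psi τ ≤ 1/16`. -/
theorem mul_psi_le_tail (τ : ℝ) (hτ : 2 ≤ τ) : τ * psi τ ≤ 1 / 16 := by
  have hτ0 : 0 < τ := by linarith
  have h1 := psi_le_exp τ hτ0
  have h2 : τ * psi τ ≤ rexp (-1 - τ^2/2) := by
    have := mul_le_mul_of_nonneg_left h1 hτ0.le
    rwa [mul_div_cancel₀ _ hτ0.ne'] at this
  have h3 : rexp (-1 - τ^2/2) ≤ rexp (-3) := by
    apply Real.exp_le_exp.mpr
    nlinarith
  have h4 : rexp (-3) ≤ 1 / 16 := by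
    have h5 := Real.sum_le_exp_of_nonneg (by norm_num : (0:ℝ) ≤ 3) 5
    have h6 : ∑ i ∈ Finset.range 5, (3:ℝ) ^ i / (i.factorial : ℝ) = 131 / 8 := by
      simp [Finset.sum_range_succ, Nat.factorial]
      norm_num
    rw [h6] at h5
    rw [Real.exp_neg]
    have h7 : (0:ℝ) < 131 / 8 := by norm_num
    calc (rexp 3)⁻¹ ≤ (131 / 8 : ℝ)⁻¹ := inv_anti₀ h7 h5
      _ ≤ 1 / 16 := by norm_num
  linarith

/-- On `[0, 2]`, `τ * psi τ` is bounded by the certified polynomial. -/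
theorem mul_psi_le_R (τ : ℝ) (h0 : 0 ≤ τ) (h2 : τ ≤ 2) :
    τ * psi τ ≤ (249339 / 625000) * τ *
      (1 + (τ^2/2 - τ^4/24 + τ^6/240 - τ^8/2688 + τ^10/34560)) - τ^2/2 := by
  have h1 := psi_le_poly τ h0
  have hQ : 0 ≤ 1 + (τ^2/2 - τ^4/24 + τ^6/240 - τ^8/2688 + τ^10/34560) := by
    have e1 : 0 ≤ τ^2 := by positivity
    have e2 : τ^2 ≤ 4 := by nlinarith
    have e3 : 0 ≤ τ^2/2 * (1 - τ^2/12) := by
      apply mul_nonneg (by positivity)
      linarith
    have e4 : 0 ≤ τ^6/240 * (1 - τ^2 * (5/56)) := by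
      apply mul_nonneg (by positivity)
      linarith
    have e5 : 0 ≤ τ^10/34560 := by positivity
    nlinarith
  have h3 := mul_le_mul_of_nonneg_right inv_sqrt_two_pi_le hQ
  have h4 : τ * psi τ ≤ τ * ((√(2 * π))⁻¹ *
      (1 + (τ^2/2 - τ^4/24 + τ^6/240 - τ^8/2688 + τ^10/34560)) - τ / 2) :=
    mul_le_mul_of_nonneg_left h1 h0
  have h5 := mul_le_mul_of_nonneg_left h3 h0
  nlinarith

/-- The universal numerical inequality: `τ * psi τ ≤ 81/800` for all `τ ≥ 0`. -/
theorem mul_psi_le_U (τ : ℝ) (h0 : 0 ≤ τ) : τ * psi τ ≤ 81 / 800 := by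
  rcases le_or_gt τ 2 with h2 | h2
  · have hR := mul_psi_le_R τ h0 h2
    rcases le_or_gt τ (1/2) with ha | ha
    · exact hR.trans (certU0 τ h0 ha)
    rcases le_or_gt τ (9/16) with hb | hb
    · exact hR.trans (certU1 τ ha.le hb)
    rcases le_or_gt τ (5/8) with hc | hc
    · exact hR.trans (certU2 τ hb.le hc)
    rcases le_or_gt τ (3/4) with hd | hd
    · exact hR.trans (certU3 τ hc.le hd)
    rcases le_or_gt τ 1 with he | he
    · exact hR.trans (certU4 τ hd.le he)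
    · exact hR.trans (certU5 τ he.le h2)
  · have := mul_psi_le_tail τ h2.le
    linarith

/-- The tail numerical inequality: `τ * psi τ ≤ 391/5000` for all `τ ≥ 107/100`. -/
theorem mul_psi_le_S (τ : ℝ) (h0 : 107 / 100 ≤ τ) : τ * psi τ ≤ 391 / 5000 := by
  rcases le_or_gt τ 2 with h2 | h2
  · have hR := mul_psi_le_R τ (by linarith) h2
    exact hR.trans (certS0 τ h0 h2)
  · have := mul_psi_le_tail τ h2.le
    linarith

end Vale.Agent.H61.P226
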