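import Vale.Agent.H61.P226.Moment

/-!
# P226: bounds for the Gaussian propeller functional

For pairwise disjoint measurable sets `A_1, …, A_k` in a finite-dimensional inner product space
with standard Gaussian measure `γ`:

* `∑ ‖z(A_i)‖^2 ≤ 81/200`;
* if every `γ(A_i) ≤ 1/7`, then `∑ ‖z(A_i)‖^2 ≤ 9/(8π)`.
-/

open MeasureTheory ProbabilityTheory Real Set
open scoped RealInnerProductSpace

namespace Vale.Agent.H61.P226

variable {E : Type*} [NormedAddCommGroup E] [InnerProductSpace ℝ E] [FiniteDimensional ℝ E]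
  [MeasurableSpace E] [BorelSpace E]

theorem sum_measureReal_le_one {k : ℕ} (A : Fin k → Set E) (hA : ∀ i, MeasurableSet (A i))
    (hdisj : Pairwise (Function.onFun Disjoint A)) :
    ∑ i, (stdGaussian E).real (A i) ≤ 1 := by
  rw [← measureReal_iUnion_fintype hdisj hA]
  exact measureReal_le_one

theorem propeller_universal {k : ℕ} (A : Fin k → Set E) (hA : ∀ i, MeasurableSet (A i))
    (hdisj : Pairwise (Function.onFun Disjoint A)) :
    ∑ i, ‖∫ x in A i, x ∂(stdGaussian E)‖ ^ 2 ≤ 81 / 200 := by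
  calc ∑ i, ‖∫ x in A i, x ∂(stdGaussian E)‖ ^ 2
      ≤ ∑ i, 81 / 200 * (stdGaussian E).real (A i) :=
        Finset.sum_le_sum (fun i _ => norm_sq_setIntegral_le (A i))
    _ = 81 / 200 * ∑ i, (stdGaussian E).real (A i) := by rw [Finset.mul_sum]
    _ ≤ 81 / 200 * 1 :=
        mul_le_mul_of_nonneg_left (sum_measureReal_le_one A hA hdisj) (by norm_num)
    _ = 81 / 200 := by norm_num

theorem propeller_small_cells {k : ℕ} (A : Fin k → Set E) (hA : ∀ i, MeasurableSet (A i))
    (hdisj : Pairwise (Function.onFun Disjoint A))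
    (hsmall : ∀ i, (stdGaussian E).real (A i) ≤ 1 / 7) :
    ∑ i, ‖∫ x in A i, x ∂(stdGaussian E)‖ ^ 2 ≤ 9 / (8 * π) := by
  have hP : (0:ℝ) ≤ 9 / (8 * π) := by positivity
  calc ∑ i, ‖∫ x in A i, x ∂(stdGaussian E)‖ ^ 2
      ≤ ∑ i, 9 / (8 * π) * (stdGaussian E).real (A i) :=
        Finset.sum_le_sum (fun i _ => norm_sq_setIntegral_le_of_small (A i) (hsmall i))
    _ = 9 / (8 * π) * ∑ i, (stdGaussian E).real (A i) := by rw [Finset.mul_sum]
    _ ≤ 9 / (8 * π) * 1 :=
        mul_le_mul_of_nonneg_left (sum_measureReal_le_one A hA hdisj) hP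
    _ = 9 / (8 * π) := by ring

end Vale.Agent.H61.P226
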