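import Vale.Agent.H61.P226.Gauss1D

/-!
# First moments of sets under the standard Gaussian measure (P226)

For a measurable set `A` of a finite-dimensional inner product space with standard Gaussian
measure `γ`, the first moment `z(A) = ∫_A x dγ` satisfies
`‖z(A)‖ ≤ τ γ(A) + psi τ` for all `τ ≥ 0`.  From the one-dimensional numerical inequalities we get
`‖z(A)‖^2 ≤ (81/200) γ(A)` for every `A`, and `‖z(A)‖^2 ≤ (9/(8π)) γ(A)` when `γ(A) ≤ 1/7`.
-/

open MeasureTheory ProbabilityTheory Real Set Filter Topology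
open scoped RealInnerProductSpace

namespace Vale.Agent.H61.P226

variable {E : Type*} [NormedAddCommGroup E] [InnerProductSpace ℝ E] [FiniteDimensional ℝ E]
  [MeasurableSpace E] [BorelSpace E]

/-- The law of `⟪u, ·⟫` under the standard Gaussian measure is the standard real Gaussian,
for a unit vector `u`. -/
theorem map_inner_stdGaussian (u : E) (hu : ‖u‖ = 1) :
    (stdGaussian E).map (fun x => ⟪u, x⟫) = gaussianReal 0 1 := by
  have h := IsGaussian.map_eq_gaussianReal (μ := stdGaussian E) (innerSL ℝ u)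
  rw [integral_strongDual_stdGaussian, variance_dual_stdGaussian, innerSL_apply_norm, hu] at h
  simpa using h

/-- Bathtub bound: the norm of the first moment of a set is at most `τ γ(A) + psi τ`. -/
theorem norm_setIntegral_le (A : Set E) (τ : ℝ) (hτ : 0 ≤ τ) :
    ‖∫ x in A, x ∂(stdGaussian E)‖ ≤ τ * (stdGaussian E).real A + psi τ := by
  set γ := stdGaussian E with hγ
  set z := ∫ x in A, x ∂γ with hz
  have hRHS : 0 ≤ τ * γ.real A + psi τ :=
    add_nonneg (mul_nonneg hτ measureReal_nonneg) (psi_nonneg τ)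
  by_cases hz0 : z = 0
  · rw [hz0, norm_zero]; exact hRHS
  have hzn : 0 < ‖z‖ := norm_pos_iff.mpr hz0
  set u : E := (‖z‖)⁻¹ • z with hu
  have hu1 : ‖u‖ = 1 := by
    rw [hu, norm_smul, norm_inv, norm_norm, inv_mul_cancel₀ hzn.ne']
  have hint : Integrable (fun x : E => x) (γ.restrict A) :=
    (IsGaussian.integrable_fun_id (μ := γ)).integrableOn
  have h1 : ‖z‖ = ∫ x in A, ⟪u, x⟫ ∂γ := by
    rw [integral_inner hint u, ← hz, hu, real_inner_smul_left, real_inner_self_eq_norm_sq]
    field_simp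
  have hcont : Continuous (fun x : E => ⟪u, x⟫) := by fun_prop
  have hint2 : Integrable (fun x : E => ⟪u, x⟫) γ := by
    have := (innerSL ℝ u).integrable_comp (IsGaussian.integrable_fun_id (μ := γ))
    simpa using this
  have hmap : γ.map (fun x => ⟪u, x⟫) = gaussianReal 0 1 := map_inner_stdGaussian u hu1
  have hint3 : Integrable (fun x : E => max (⟪u, x⟫ - τ) 0) γ :=
    (hint2.sub (integrable_const τ)).pos_part
  have h2 : ∫ x, max (⟪u, x⟫ - τ) 0 ∂γ = psi τ := by
    unfold psi
    rw [← hmap, integral_map hcont.aemeasurable]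
    exact (by fun_prop : Measurable (fun s : ℝ => max (s - τ) 0)).aestronglyMeasurable
  have h3 : ∫ x in A, ⟪u, x⟫ ∂γ = (∫ x in A, (⟪u, x⟫ - τ) ∂γ) + τ * γ.real A := by
    rw [integral_sub hint2.integrableOn (integrable_const τ), setIntegral_const]
    simp only [smul_eq_mul]
    ring
  have h4 : ∫ x in A, (⟪u, x⟫ - τ) ∂γ ≤ ∫ x in A, max (⟪u, x⟫ - τ) 0 ∂γ := by
    apply setIntegral_mono (hint2.sub (integrable_const τ)).integrableOn hint3.integrableOn
    intro x
    exact le_max_left _ _
  have h5 : ∫ x in A, max (⟪u, x⟫ - τ) 0 ∂γ ≤ ∫ x, max (⟪u, x⟫ - τ) 0 ∂γ :=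
    setIntegral_le_integral hint3 (ae_of_all _ (fun x => le_max_right _ _))
  rw [h1, h3]
  linarith

/-- Universal first-moment bound: `‖z(A)‖^2 ≤ (81/200) γ(A)`. -/
theorem norm_sq_setIntegral_le (A : Set E) :
    ‖∫ x in A, x ∂(stdGaussian E)‖ ^ 2 ≤ 81 / 200 * (stdGaussian E).real A := by
  set γ := stdGaussian E with hγ
  set w := ‖∫ x in A, x ∂γ‖ with hw
  set m := γ.real A with hm
  have hm0 : 0 ≤ m := measureReal_nonneg
  have hw0 : 0 ≤ w := norm_nonneg _
  rcases hm0.eq_or_lt with hmz | hmpos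
  · -- null set
    have hA0 : γ A = 0 := by
      have : γ.real A = 0 := hmz.symm
      exact (measureReal_eq_zero_iff (by finiteness)).mp this
    have : ∫ x in A, x ∂γ = 0 := setIntegral_measure_zero _ hA0
    rw [hw, this, norm_zero, ← hmz]
    norm_num
  rcases hw0.eq_or_lt with hwz | hwpos
  · rw [← hwz]
    have : (0:ℝ) ^ 2 = 0 := by norm_num
    rw [this]
    positivity
  -- plug `τ = w / (2 m)`
  set τ := w / (2 * m) with hτ
  have hτpos : 0 < τ := by positivity
  have h1 := norm_setIntegral_le A τ hτpos.le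
  have h2 := mul_psi_le_U τ hτpos.le
  have h3 : psi τ ≤ 81 / 800 / τ := by
    rw [le_div_iff₀ hτpos]
    linarith
  have h4 : τ * m = w / 2 := by
    rw [hτ]; field_simp
  have h5 : 81 / 800 / τ = 81 / 400 * m / w := by
    rw [hτ]; field_simp; ring
  have h6 : w ≤ w / 2 + 81 / 400 * m / w := by
    calc w ≤ τ * m + psi τ := h1
      _ ≤ w / 2 + 81 / 400 * m / w := by rw [h4, ← h5]; linarith
  have h7 : w / 2 ≤ 81 / 400 * m / w := by linarith
  rw [le_div_iff₀ hwpos] at h7
  nlinarith

/-- Sharp-constant first-moment bound for sets of measure at most `1/7`: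
`‖z(A)‖^2 ≤ (9/(8π)) γ(A)`. -/
theorem norm_sq_setIntegral_le_of_small (A : Set E)
    (hA : (stdGaussian E).real A ≤ 1 / 7) :
    ‖∫ x in A, x ∂(stdGaussian E)‖ ^ 2 ≤ 9 / (8 * π) * (stdGaussian E).real A := by
  set γ := stdGaussian E with hγ
  set w := ‖∫ x in A, x ∂γ‖ with hw
  set m := γ.real A with hm
  have hm0 : 0 ≤ m := measureReal_nonneg
  have hw0 : 0 ≤ w := norm_nonneg _
  -- rational lower bound for `9/(8π)`
  have hP : (358 / 1000 : ℝ) ≤ 9 / (8 * π) := by
    rw [le_div_iff₀ (by positivity)]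
    have := Real.pi_lt_d6
    nlinarith
  suffices hsuff : w ^ 2 ≤ 358 / 1000 * m by
    calc w ^ 2 ≤ 358 / 1000 * m := hsuff
      _ ≤ 9 / (8 * π) * m := mul_le_mul_of_nonneg_right hP hm0
  rcases hm0.eq_or_lt with hmz | hmpos
  · have hA0 : γ A = 0 := by
      have : γ.real A = 0 := hmz.symm
      exact (measureReal_eq_zero_iff (by finiteness)).mp this
    have : ∫ x in A, x ∂γ = 0 := setIntegral_measure_zero _ hA0
    rw [hw, this, norm_zero, ← hmz]
    norm_num
  rcases hw0.eq_or_lt with hwz | hwpos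
  · rw [← hwz]
    have : (0:ℝ) ^ 2 = 0 := by norm_num
    rw [this]
    positivity
  have hS0 := mul_psi_le_S (107 / 100) le_rfl
  rcases le_or_gt (391 / 5000 : ℝ) (m * (107 / 100) ^ 2) with hcase | hcase
  · -- `m` between `C / τ₀²` and `1/7`: use `τ = τ₀`
    have h1 := norm_setIntegral_le A (107 / 100 : ℝ) (by norm_num)
    have h2 : psi (107 / 100) ≤ 391 / 5000 / (107 / 100) := by
      rw [le_div_iff₀ (by norm_num)]
      linarith
    have h3 : w ≤ 107 / 100 * m + 391 / 5000 / (107 / 100) := by linarith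
    have h4 : 0 ≤ (m - 391 / 5000 / (107 / 100) ^ 2) * (1 / 7 - m) := by
      apply mul_nonneg
      · rw [sub_nonneg, div_le_iff₀ (by norm_num)]
        linarith
      · linarith
    have h5 : (107 / 100 * m + 391 / 5000 / (107 / 100)) ^ 2 ≤ 358 / 1000 * m := by
      nlinarith
    calc w ^ 2 ≤ (107 / 100 * m + 391 / 5000 / (107 / 100)) ^ 2 :=
          pow_le_pow_left₀ hw0 h3 2
      _ ≤ 358 / 1000 * m := h5
  · -- small `m`
    rcases le_or_gt (2 * m * (107 / 100)) w with hcase2 | hcase2
    · set τ := w / (2 * m) with hτ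
      have hτpos : 0 < τ := by positivity
      have hτ0 : 107 / 100 ≤ τ := by
        rw [hτ, le_div_iff₀ (by positivity)]
        linarith
      have h1 := norm_setIntegral_le A τ hτpos.le
      have h2 := mul_psi_le_S τ hτ0
      have h3 : psi τ ≤ 391 / 5000 / τ := by
        rw [le_div_iff₀ hτpos]
        linarith
      have h4 : τ * m = w / 2 := by
        rw [hτ]; field_simp
      have h5 : 391 / 5000 / τ = 391 / 2500 * m / w := by
        rw [hτ]; field_simp; ring
      have h6 : w ≤ w / 2 + 391 / 2500 * m / w := by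
        calc w ≤ τ * m + psi τ := h1
          _ ≤ w / 2 + 391 / 2500 * m / w := by rw [h4, ← h5]; linarith
      have h7 : w / 2 ≤ 391 / 2500 * m / w := by linarith
      rw [le_div_iff₀ hwpos] at h7
      nlinarith
    · have h1 : w ^ 2 ≤ (2 * m * (107 / 100)) ^ 2 := pow_le_pow_left₀ hw0 hcase2.le 2
      nlinarith

end Vale.Agent.H61.P226
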