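import Vale.Agent.H61.P226.Triples

/-!
# P226: families of disjoint sets invariant under `x ↦ -x`

If a finite family of pairwise disjoint measurable sets is invariant under `x ↦ -x` (the
reflection of each member is again a member), the sum of the squared norms of the Gaussian
first moments is at most `1/π`.
-/

open MeasureTheory ProbabilityTheory Real Set
open scoped RealInnerProductSpace

namespace Vale.Agent.H61.P226

variable {E : Type*} [NormedAddCommGroup E] [InnerProductSpace ℝ E] [FiniteDimensional ℝ E]
  [MeasurableSpace E] [BorelSpace E]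

/-- The standard Gaussian measure is invariant under `x ↦ -x` (vector valued integrands). -/
theorem integral_comp_neg_vec (f : E → E) :
    ∫ x, f (-x) ∂(stdGaussian E) = ∫ x, f x ∂(stdGaussian E) := by
  have h := stdGaussian_map (E := E) (LinearIsometryEquiv.neg ℝ)
  have h2 : (stdGaussian E).map (fun x : E => -x) = stdGaussian E := by
    convert h using 2
    ext x
    simp
  conv_rhs => rw [← h2]
  exact (integral_map_equiv (MeasurableEquiv.neg E) f).symm

/-- The first moment of the reflected set is the negative of the first moment. -/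
theorem moment_neg_set {A B : Set E} (hA : MeasurableSet A) (hB : MeasurableSet B)
    (h : ∀ x, x ∈ B ↔ -x ∈ A) :
    ∫ x in B, x ∂(stdGaussian E) = -∫ x in A, x ∂(stdGaussian E) := by
  classical
  rw [← integral_indicator hB, ← integral_indicator hA]
  rw [← integral_comp_neg_vec (fun x : E => B.indicator (fun y => y) x), ← integral_neg]
  refine integral_congr_ae (ae_of_all _ fun x => ?_)
  by_cases hx : x ∈ A
  · have hx' : -x ∈ B := (h (-x)).2 (by simpa using hx)
    simp [Set.indicator_of_mem hx, Set.indicator_of_mem hx']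
  · have hx' : -x ∉ B := fun hh => hx (by simpa using (h (-x)).1 hh)
    simp [Set.indicator_of_notMem hx, Set.indicator_of_notMem hx']

theorem energy2_map {ι : Type*} (u : ι → E) (l : List ι) :
    energy2 (l.map u) = (l.map fun i => ‖u i‖ ^ 2).sum := by
  induction l with
  | nil => simp [energy2]
  | cons a l ih =>
    show ‖u a‖ ^ 2 + energy2 (l.map u) = _
    rw [ih]
    simp

/-- **Centrally symmetric families.** If a finite family of pairwise disjoint measurable sets
is invariant under `x ↦ -x`, the sum of the squared norms of the first moments is at most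
`1/π`. -/
theorem propeller_centrally_symmetric {k : ℕ} (A : Fin k → Set E)
    (hA : ∀ i, MeasurableSet (A i)) (hdisj : Pairwise (Function.onFun Disjoint A))
    (hsym : ∀ i, ∃ j, ∀ x, x ∈ A j ↔ -x ∈ A i) :
    ∑ i, ‖∫ x in A i, x ∂(stdGaussian E)‖ ^ 2 ≤ 1 / π := by
  classical
  set γ := stdGaussian E with hγ
  set u : Fin k → E := fun i => ∫ x in A i, x ∂γ with hu
  choose σ hσ using hsym
  have huσ : ∀ i, u (σ i) = -u i := fun i => moment_neg_set (hA i) (hA (σ i)) (hσ i)
  -- nonempty cells: `σ` is an involution there
  have hinv : ∀ i, (A i).Nonempty → σ (σ i) = i := by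
    intro i ⟨x, hx⟩
    by_contra hne
    have hx2 : x ∈ A (σ (σ i)) := by
      rw [hσ (σ i), hσ i]
      simpa using hx
    exact Set.disjoint_left.mp (hdisj hne) hx2 hx
  have hne : ∀ i, u i ≠ 0 → (A i).Nonempty := by
    intro i hi
    by_contra hemp
    rw [Set.not_nonempty_iff_eq_empty] at hemp
    apply hi
    simp [hu, hemp]
  set F : ℝ := ∑ i, ‖u i‖ ^ 2 with hFdef
  have hF0 : 0 ≤ F := Finset.sum_nonneg fun i _ => by positivity
  set R : Finset (Fin k) := Finset.univ.filter (fun i => u i ≠ 0 ∧ i < σ i) with hR
  set L : List E := R.toList.map u with hL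
  -- every moment is dominated by the list
  have hv : ∀ (i : Fin k) (x : E), ⟪u i, x⟫ ≤ gmax2 L x := by
    intro i x
    by_cases hi : u i = 0
    · rw [hi, inner_zero_left]
      exact gmax2_nonneg L x
    have hii := hinv i (hne i hi)
    rcases lt_trichotomy i (σ i) with h | h | h
    · have hmem : u i ∈ L := by
        rw [hL, List.mem_map]
        exact ⟨i, by simp [hR, hi, h], rfl⟩
      exact (le_abs_self _).trans (le_gmax2 hmem x)
    · exfalso
      have := huσ i
      rw [← h] at this
      apply hi
      have h2 : (2 : ℝ) • u i = 0 := by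
        rw [two_smul]
        nth_rewrite 1 [this]
        simp
      simpa using h2
    · have hσi : u (σ i) ≠ 0 := by
        rw [huσ i]
        simpa using hi
      have hmem : u (σ i) ∈ L := by
        rw [hL, List.mem_map]
        exact ⟨σ i, by simp [hR, hσi, hii, h], rfl⟩
      have := le_gmax2 hmem x
      rw [huσ i, inner_neg_left, abs_neg] at this
      exact (le_abs_self _).trans this
  -- energy of the list
  have hen : energy2 L ≤ F / 2 := by
    rw [hL, energy2_map, Finset.sum_map_toList]
    have hinj : Set.InjOn σ (R : Set (Fin k)) := by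
      intro i hi j hj hij
      have hi' := (Finset.mem_filter.mp hi).2
      have hj' := (Finset.mem_filter.mp hj).2
      rw [← hinv i (hne i hi'.1), ← hinv j (hne j hj'.1), hij]
    have hdj : Disjoint R (R.image σ) := by
      rw [Finset.disjoint_left]
      intro i hi hi2
      obtain ⟨j, hj, rfl⟩ := Finset.mem_image.mp hi2
      have hj' := (Finset.mem_filter.mp hj).2
      have hi' := (Finset.mem_filter.mp hi).2
      have := hinv j (hne j hj'.1)
      rw [this] at hi'
      exact absurd hj'.2 (not_lt.mpr hi'.2.le)
    have h1 : ∑ i ∈ R.image σ, ‖u i‖ ^ 2 = ∑ i ∈ R, ‖u i‖ ^ 2 := by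
      rw [Finset.sum_image hinj]
      refine Finset.sum_congr rfl fun i _ => ?_
      rw [huσ i, norm_neg]
    have h2 : ∑ i ∈ R ∪ R.image σ, ‖u i‖ ^ 2 ≤ F :=
      Finset.sum_le_sum_of_subset_of_nonneg (Finset.subset_univ _) fun i _ _ => by positivity
    rw [Finset.sum_union hdj, h1] at h2
    linarith
  have h1 := sum_inner_moment_le A hA hdisj u (gmax2 L) (integrable_gmax2 L) (gmax2_nonneg L) hv
  have h2 : ∑ i, ⟪u i, ∫ x in A i, x ∂γ⟫ = F :=
    Finset.sum_congr rfl fun i _ => real_inner_self_eq_norm_sq _
  have h3 := integral_gmax2_le (E := E) L.length L rfl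
  have h4 : F ≤ √(2 / π) / √2 * √F := by
    calc F = ∑ i, ⟪u i, ∫ x in A i, x ∂γ⟫ := h2.symm
      _ ≤ ∫ x, gmax2 L x ∂γ := h1
      _ ≤ √(2 / π) * √(energy2 L) := h3
      _ ≤ √(2 / π) * √(F / 2) :=
        mul_le_mul_of_nonneg_left (Real.sqrt_le_sqrt hen) (Real.sqrt_nonneg _)
      _ = √(2 / π) / √2 * √F := by
        rw [Real.sqrt_div hF0]
        ring
  have h5 := le_sq_of_le_mul_sqrt hF0 h4
  have h6 : (√(2 / π) / √2) ^ 2 = 1 / π := by
    rw [div_pow, Real.sq_sqrt (by positivity), Real.sq_sqrt (by norm_num)]
    field_simp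
  rw [h6] at h5
  exact h5

end Vale.Agent.H61.P226
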