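import Vale.Agent.H61.P226.Moment

/-!
# P226: partitions whose first moments split into zero-sum triples or antipodal pairs

Let `γ` be the standard Gaussian measure and `z(A) = ∫_A x dγ`.

* `propeller_zero_sum_triples`: if pairwise disjoint measurable sets are grouped in triples with
  `z(A) + z(B) + z(C) = 0`, then the sum of all `‖z‖^2` is at most `9/(8π)`.
* `propeller_antipodal_pairs`: if they are grouped in pairs with `z(B) = -z(A)`, the sum is at
  most `1/π`.

Method: `∑ ‖z_i‖^2 ≤ ∫ max_i ⟪z_i, x⟫ dγ`; the maximum over all triples is dominated pointwise by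
the average, over independent cyclic shifts of the triples, of the maximum over one triple of
sums, and for a single zero-sum triple the Gaussian mean of the maximum is computed exactly.
-/

open MeasureTheory ProbabilityTheory Real Set
open scoped RealInnerProductSpace

namespace Vale.Agent.H61.P226

variable {E : Type*} [NormedAddCommGroup E] [InnerProductSpace ℝ E] [FiniteDimensional ℝ E]
  [MeasurableSpace E] [BorelSpace E]

theorem integrable_inner (v : E) : Integrable (fun x : E => ⟪v, x⟫) (stdGaussian E) := by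
  have := (innerSL ℝ v).integrable_comp (IsGaussian.integrable_fun_id (μ := stdGaussian E))
  simpa using this

/-- The standard Gaussian measure is invariant under `x ↦ -x`. -/
theorem integral_comp_neg (f : E → ℝ) :
    ∫ x, f (-x) ∂(stdGaussian E) = ∫ x, f x ∂(stdGaussian E) := by
  have h := stdGaussian_map (E := E) (LinearIsometryEquiv.neg ℝ)
  have h2 : (stdGaussian E).map (fun x : E => -x) = stdGaussian E := by
    convert h using 2
    ext x
    simp
  conv_rhs => rw [← h2]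
  exact (integral_map_equiv (MeasurableEquiv.neg E) f).symm

theorem psi_zero : psi 0 = (√(2 * π))⁻¹ := by
  rw [psi_eq 0 le_rfl]
  simp

theorem integral_abs_gaussianReal : ∫ s, |s| ∂(gaussianReal 0 1) = √(2 / π) := by
  have h1 : ∀ s : ℝ, |s| = max (s - 0) 0 + max (-s - 0) 0 := by
    intro s
    rcases le_total 0 s with h | h
    · rw [abs_of_nonneg h, max_eq_left (by linarith), max_eq_right (by linarith)]; ring
    · rw [abs_of_nonpos h, max_eq_right (by linarith), max_eq_left (by linarith)]; ring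
  have i1 := integrable_max_sub 0
  have hneg : (gaussianReal 0 1).map (fun x : ℝ => -x) = gaussianReal 0 1 := by
    rw [gaussianReal_map_neg]; simp
  have i2 : Integrable (fun s : ℝ => max (-s - 0) 0) (gaussianReal 0 1) := by
    have := (integrable_map_equiv (MeasurableEquiv.neg ℝ) (fun s : ℝ => max (s - 0) 0)
      (μ := gaussianReal 0 1)).mp (by
        have e : Measure.map (⇑(MeasurableEquiv.neg ℝ)) (gaussianReal 0 1) = gaussianReal 0 1 := hneg
        rw [e]; exact i1)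
    exact this
  have e2 : ∫ s, max (-s - 0) 0 ∂(gaussianReal 0 1) = psi 0 := by
    unfold psi
    conv_rhs => rw [← hneg]
    exact (integral_map_equiv (MeasurableEquiv.neg ℝ) (fun s : ℝ => max (s - 0) 0)).symm
  simp_rw [h1]
  rw [integral_add i1 i2, e2]
  have : ∫ s, max (s - 0) 0 ∂(gaussianReal 0 1) = psi 0 := rfl
  rw [this, psi_zero]
  have hpi : 0 < π := Real.pi_pos
  have h2 : √(2 * π) = √2 * √π := Real.sqrt_mul (by norm_num) _
  have h3 : √(2 / π) = √2 / √π := Real.sqrt_div (by norm_num) _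
  rw [h2, h3]
  have hs2 : √2 * √2 = 2 := Real.mul_self_sqrt (by norm_num)
  have hsp : 0 < √π := Real.sqrt_pos.mpr hpi
  have hs2' : 0 < √2 := Real.sqrt_pos.mpr (by norm_num)
  field_simp
  nlinarith [hs2]

theorem integral_abs_inner (v : E) :
    ∫ x, |⟪v, x⟫| ∂(stdGaussian E) = √(2 / π) * ‖v‖ := by
  by_cases hv : v = 0
  · subst hv; simp
  have hvn : 0 < ‖v‖ := norm_pos_iff.mpr hv
  set u : E := (‖v‖)⁻¹ • v with hu
  have hu1 : ‖u‖ = 1 := by
    rw [hu, norm_smul, norm_inv, norm_norm, inv_mul_cancel₀ hvn.ne']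
  have hmap := map_inner_stdGaussian u hu1
  have hcont : Continuous (fun x : E => ⟪u, x⟫) := by fun_prop
  have e1 : ∀ x : E, |⟪v, x⟫| = ‖v‖ * |⟪u, x⟫| := by
    intro x
    rw [hu, real_inner_smul_left, abs_mul, abs_inv, abs_norm]
    field_simp
  simp_rw [e1]
  rw [integral_const_mul]
  have e2 : ∫ x, |⟪u, x⟫| ∂(stdGaussian E) = ∫ s, |s| ∂(gaussianReal 0 1) := by
    rw [← hmap, integral_map hcont.aemeasurable]
    exact (by fun_prop : Measurable (fun s : ℝ => |s|)).aestronglyMeasurable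
  rw [e2, integral_abs_gaussianReal]
  ring

theorem max3_add_max3_neg (a b c : ℝ) :
    max a (max b c) + max (-a) (max (-b) (-c)) = (|a - b| + |b - c| + |a - c|) / 2 := by
  rcases le_total a b with h1 | h1 <;> rcases le_total b c with h2 | h2 <;>
    rcases le_total a c with h3 | h3 <;>
    simp only [max_def, abs_of_nonneg, abs_of_nonpos, sub_nonneg, sub_nonpos, h1, h2, h3,
      neg_le_neg_iff] <;> split_ifs <;> linarith

theorem max3_nonneg {a b c : ℝ} (h : a + b + c = 0) : 0 ≤ max a (max b c) := by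
  by_contra hneg
  push Not at hneg
  have h1 := (le_max_left a (max b c)).trans_lt hneg
  have h2 := ((le_max_left b c).trans (le_max_right a (max b c))).trans_lt hneg
  have h3 := ((le_max_right b c).trans (le_max_right a (max b c))).trans_lt hneg
  linarith

/-- The three-point inequality (Khot-Naor, `k = 3`) in expectation form. -/
theorem integral_max3_le (u₀ u₁ u₂ : E) (h : u₀ + u₁ + u₂ = 0) :
    ∫ x, max ⟪u₀, x⟫ (max ⟪u₁, x⟫ ⟪u₂, x⟫) ∂(stdGaussian E) ≤
      3 / 4 * √(2 / π) * √(‖u₀‖ ^ 2 + ‖u₁‖ ^ 2 + ‖u₂‖ ^ 2) := by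
  set γ := stdGaussian E with hγ
  have i0 := integrable_inner (E := E) u₀
  have i1 := integrable_inner (E := E) u₁
  have i2 := integrable_inner (E := E) u₂
  have im : Integrable (fun x : E => max ⟪u₀, x⟫ (max ⟪u₁, x⟫ ⟪u₂, x⟫)) γ := i0.sup (i1.sup i2)
  have hneg := integral_comp_neg (E := E) (fun x => max ⟪u₀, x⟫ (max ⟪u₁, x⟫ ⟪u₂, x⟫))
  simp only [inner_neg_right] at hneg
  have im' : Integrable (fun x : E => max (-⟪u₀, x⟫) (max (-⟪u₁, x⟫) (-⟪u₂, x⟫))) γ :=
    i0.neg.sup (i1.neg.sup i2.neg)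
  have hsum : ∫ x, max ⟪u₀, x⟫ (max ⟪u₁, x⟫ ⟪u₂, x⟫) ∂γ +
      ∫ x, max (-⟪u₀, x⟫) (max (-⟪u₁, x⟫) (-⟪u₂, x⟫)) ∂γ =
      (√(2 / π) * ‖u₀ - u₁‖ + √(2 / π) * ‖u₁ - u₂‖ + √(2 / π) * ‖u₀ - u₂‖) / 2 := by
    rw [← integral_add im im']
    simp_rw [max3_add_max3_neg, ← inner_sub_left]
    rw [integral_div, integral_add, integral_add, integral_abs_inner, integral_abs_inner,
      integral_abs_inner]
    · exact (integrable_inner _).abs
    · exact (integrable_inner _).abs
    · exact (integrable_inner _).abs.add (integrable_inner _).abs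
    · exact (integrable_inner _).abs
  rw [hneg] at hsum
  have hval : ∫ x, max ⟪u₀, x⟫ (max ⟪u₁, x⟫ ⟪u₂, x⟫) ∂γ =
      √(2 / π) * (‖u₀ - u₁‖ + ‖u₁ - u₂‖ + ‖u₀ - u₂‖) / 4 := by linarith
  rw [hval]
  -- sum of squared distances
  have hS : ‖u₀ - u₁‖ ^ 2 + ‖u₁ - u₂‖ ^ 2 + ‖u₀ - u₂‖ ^ 2 =
      3 * (‖u₀‖ ^ 2 + ‖u₁‖ ^ 2 + ‖u₂‖ ^ 2) := by
    have h0 : ‖u₀ + u₁ + u₂‖ ^ 2 = 0 := by rw [h]; simp
    rw [norm_add_sq_real, norm_add_sq_real, inner_add_left] at h0
    rw [norm_sub_sq_real, norm_sub_sq_real, norm_sub_sq_real]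
    linarith
  have hcs : ‖u₀ - u₁‖ + ‖u₁ - u₂‖ + ‖u₀ - u₂‖ ≤
      3 * √(‖u₀‖ ^ 2 + ‖u₁‖ ^ 2 + ‖u₂‖ ^ 2) := by
    have hnn : 0 ≤ ‖u₀‖ ^ 2 + ‖u₁‖ ^ 2 + ‖u₂‖ ^ 2 := by positivity
    have : 3 * √(‖u₀‖ ^ 2 + ‖u₁‖ ^ 2 + ‖u₂‖ ^ 2) =
        √(9 * (‖u₀‖ ^ 2 + ‖u₁‖ ^ 2 + ‖u₂‖ ^ 2)) := by
      rw [Real.sqrt_mul (by norm_num)]
      congr 1
      rw [show (9:ℝ) = 3 ^ 2 by norm_num, Real.sqrt_sq (by norm_num)]
    rw [this]
    apply Real.le_sqrt_of_sq_le
    nlinarith [sq_nonneg (‖u₀ - u₁‖ - ‖u₁ - u₂‖), sq_nonneg (‖u₁ - u₂‖ - ‖u₀ - u₂‖),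
      sq_nonneg (‖u₀ - u₁‖ - ‖u₀ - u₂‖)]
  have hc : 0 ≤ √(2 / π) := Real.sqrt_nonneg _
  calc √(2 / π) * (‖u₀ - u₁‖ + ‖u₁ - u₂‖ + ‖u₀ - u₂‖) / 4
      ≤ √(2 / π) * (3 * √(‖u₀‖ ^ 2 + ‖u₁‖ ^ 2 + ‖u₂‖ ^ 2)) / 4 := by
        apply div_le_div_of_nonneg_right (mul_le_mul_of_nonneg_left hcs hc) (by norm_num)
    _ = 3 / 4 * √(2 / π) * √(‖u₀‖ ^ 2 + ‖u₁‖ ^ 2 + ‖u₂‖ ^ 2) := by ring

/-- Pointwise maximum of all the linear functionals of a list of triples, and `0`. -/
noncomputable def gmax : List (E × E × E) → E → ℝ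
  | [], _ => 0
  | T :: L, x => max (max ⟪T.1, x⟫ (max ⟪T.2.1, x⟫ ⟪T.2.2, x⟫)) (gmax L x)

/-- Sum of the squared norms of all the vectors of a list of triples. -/
noncomputable def energy : List (E × E × E) → ℝ
  | [] => 0
  | T :: L => ‖T.1‖ ^ 2 + ‖T.2.1‖ ^ 2 + ‖T.2.2‖ ^ 2 + energy L

theorem gmax_nonneg (L : List (E × E × E)) (x : E) : 0 ≤ gmax L x := by
  induction L with
  | nil => exact le_rfl
  | cons T L ih => exact le_max_of_le_right ih

theorem energy_nonneg (L : List (E × E × E)) : 0 ≤ energy L := by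
  induction L with
  | nil => exact le_rfl
  | cons T L ih =>
    show 0 ≤ ‖T.1‖ ^ 2 + ‖T.2.1‖ ^ 2 + ‖T.2.2‖ ^ 2 + energy L
    positivity

theorem integrable_gmax (L : List (E × E × E)) : Integrable (gmax L) (stdGaussian E) := by
  induction L with
  | nil => exact integrable_zero _ _ _
  | cons T L ih =>
    exact ((integrable_inner T.1).sup ((integrable_inner T.2.1).sup (integrable_inner T.2.2))).sup
      ih

theorem le_gmax {L : List (E × E × E)} {T : E × E × E} (hT : T ∈ L) (x : E) :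
    ⟪T.1, x⟫ ≤ gmax L x ∧ ⟪T.2.1, x⟫ ≤ gmax L x ∧ ⟪T.2.2, x⟫ ≤ gmax L x := by
  induction L with
  | nil => simp at hT
  | cons S L ih =>
    rcases List.mem_cons.mp hT with rfl | h
    · refine ⟨?_, ?_, ?_⟩
      · exact le_max_of_le_left (le_max_left _ _)
      · exact le_max_of_le_left (le_max_of_le_right (le_max_left _ _))
      · exact le_max_of_le_left (le_max_of_le_right (le_max_right _ _))
    · obtain ⟨h1, h2, h3⟩ := ih h
      exact ⟨le_max_of_le_right h1, le_max_of_le_right h2, le_max_of_le_right h3⟩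

theorem merge_le (a₀ a₁ a₂ b₀ b₁ b₂ R : ℝ) (ha : a₀ + a₁ + a₂ = 0) (hb : b₀ + b₁ + b₂ = 0) :
    max (max a₀ (max a₁ a₂)) (max (max b₀ (max b₁ b₂)) R) ≤
      (max (max (a₀ + b₀) (max (a₁ + b₁) (a₂ + b₂))) R +
        max (max (a₀ + b₁) (max (a₁ + b₂) (a₂ + b₀))) R +
        max (max (a₀ + b₂) (max (a₁ + b₀) (a₂ + b₁))) R) / 3 := by
  have p1 : a₀ + b₀ ≤ max (max (a₀ + b₀) (max (a₁ + b₁) (a₂ + b₂))) R :=
    le_max_of_le_left (le_max_left _ _)
  have p2 : a₁ + b₁ ≤ max (max (a₀ + b₀) (max (a₁ + b₁) (a₂ + b₂))) R :=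
    le_max_of_le_left (le_max_of_le_right (le_max_left _ _))
  have p3 : a₂ + b₂ ≤ max (max (a₀ + b₀) (max (a₁ + b₁) (a₂ + b₂))) R :=
    le_max_of_le_left (le_max_of_le_right (le_max_right _ _))
  have p4 : R ≤ max (max (a₀ + b₀) (max (a₁ + b₁) (a₂ + b₂))) R := le_max_right _ _
  have q1 : a₀ + b₁ ≤ max (max (a₀ + b₁) (max (a₁ + b₂) (a₂ + b₀))) R :=
    le_max_of_le_left (le_max_left _ _)
  have q2 : a₁ + b₂ ≤ max (max (a₀ + b₁) (max (a₁ + b₂) (a₂ + b₀))) R :=
    le_max_of_le_left (le_max_of_le_right (le_max_left _ _))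
  have q3 : a₂ + b₀ ≤ max (max (a₀ + b₁) (max (a₁ + b₂) (a₂ + b₀))) R :=
    le_max_of_le_left (le_max_of_le_right (le_max_right _ _))
  have q4 : R ≤ max (max (a₀ + b₁) (max (a₁ + b₂) (a₂ + b₀))) R := le_max_right _ _
  have r1 : a₀ + b₂ ≤ max (max (a₀ + b₂) (max (a₁ + b₀) (a₂ + b₁))) R :=
    le_max_of_le_left (le_max_left _ _)
  have r2 : a₁ + b₀ ≤ max (max (a₀ + b₂) (max (a₁ + b₀) (a₂ + b₁))) R :=
    le_max_of_le_left (le_max_of_le_right (le_max_left _ _))
  have r3 : a₂ + b₁ ≤ max (max (a₀ + b₂) (max (a₁ + b₀) (a₂ + b₁))) R :=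
    le_max_of_le_left (le_max_of_le_right (le_max_right _ _))
  have r4 : R ≤ max (max (a₀ + b₂) (max (a₁ + b₀) (a₂ + b₁))) R := le_max_right _ _
  refine max_le (max_le ?_ (max_le ?_ ?_)) (max_le (max_le ?_ (max_le ?_ ?_)) ?_) <;> linarith

theorem energy_merge (u₀ u₁ u₂ v₀ v₁ v₂ : E) (hv : v₀ + v₁ + v₂ = 0) :
    (‖u₀ + v₀‖ ^ 2 + ‖u₁ + v₁‖ ^ 2 + ‖u₂ + v₂‖ ^ 2) +
      (‖u₀ + v₁‖ ^ 2 + ‖u₁ + v₂‖ ^ 2 + ‖u₂ + v₀‖ ^ 2) +
      (‖u₀ + v₂‖ ^ 2 + ‖u₁ + v₀‖ ^ 2 + ‖u₂ + v₁‖ ^ 2) =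
    3 * ((‖u₀‖ ^ 2 + ‖u₁‖ ^ 2 + ‖u₂‖ ^ 2) + (‖v₀‖ ^ 2 + ‖v₁‖ ^ 2 + ‖v₂‖ ^ 2)) := by
  have h0 : ⟪u₀, v₀ + v₁ + v₂⟫ = 0 := by rw [hv, inner_zero_right]
  have h1 : ⟪u₁, v₀ + v₁ + v₂⟫ = 0 := by rw [hv, inner_zero_right]
  have h2 : ⟪u₂, v₀ + v₁ + v₂⟫ = 0 := by rw [hv, inner_zero_right]
  rw [inner_add_right, inner_add_right] at h0 h1 h2
  simp only [norm_add_sq_real]
  linarith

theorem sqrt_avg3 {p q r : ℝ} (hp : 0 ≤ p) (hq : 0 ≤ q) (hr : 0 ≤ r) :
    (√p + √q + √r) / 3 ≤ √((p + q + r) / 3) := by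
  apply Real.le_sqrt_of_sq_le
  have e1 := Real.sq_sqrt hp
  have e2 := Real.sq_sqrt hq
  have e3 := Real.sq_sqrt hr
  nlinarith [sq_nonneg (√p - √q), sq_nonneg (√q - √r), sq_nonneg (√p - √r)]

/-- Main inequality: for a list of zero-sum triples, the Gaussian mean of the maximum of all
the linear functionals is at most `(3/4) √(2/π)` times the square root of the energy. -/
theorem integral_gmax_le : ∀ (n : ℕ) (L : List (E × E × E)), L.length = n →
    (∀ T ∈ L, T.1 + T.2.1 + T.2.2 = 0) →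
    ∫ x, gmax L x ∂(stdGaussian E) ≤ 3 / 4 * √(2 / π) * √(energy L) := by
  intro n
  induction n with
  | zero =>
    intro L hL _
    rw [List.length_eq_zero_iff] at hL
    subst hL
    simp [gmax, energy]
  | succ n ih =>
    intro L hL hz
    match L, hL, hz with
    | [T], _, hz =>
      have hT := hz T (by simp)
      have e1 : ∀ x : E, gmax [T] x = max ⟪T.1, x⟫ (max ⟪T.2.1, x⟫ ⟪T.2.2, x⟫) := by
        intro x
        show max (max ⟪T.1, x⟫ (max ⟪T.2.1, x⟫ ⟪T.2.2, x⟫)) 0 = _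
        apply max_eq_left
        apply max3_nonneg
        rw [← inner_add_left, ← inner_add_left, hT, inner_zero_left]
      simp_rw [e1]
      have e2 : energy [T] = ‖T.1‖ ^ 2 + ‖T.2.1‖ ^ 2 + ‖T.2.2‖ ^ 2 := by
        show ‖T.1‖ ^ 2 + ‖T.2.1‖ ^ 2 + ‖T.2.2‖ ^ 2 + 0 = _
        ring
      rw [e2]
      exact integral_max3_le T.1 T.2.1 T.2.2 hT
    | U :: V :: L', hL, hz =>
      have hU := hz U (by simp)
      have hV := hz V (by simp)
      have hL' : ∀ T ∈ L', T.1 + T.2.1 + T.2.2 = 0 := fun T hT => hz T (by simp [hT])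
      have hlen : L'.length + 1 = n := by
        simp only [List.length_cons] at hL
        omega
      set T₀ : E × E × E := (U.1 + V.1, U.2.1 + V.2.1, U.2.2 + V.2.2) with hT₀
      set T₁ : E × E × E := (U.1 + V.2.1, U.2.1 + V.2.2, U.2.2 + V.1) with hT₁
      set T₂ : E × E × E := (U.1 + V.2.2, U.2.1 + V.1, U.2.2 + V.2.1) with hT₂
      have z₀ : ∀ T ∈ T₀ :: L', T.1 + T.2.1 + T.2.2 = 0 := by
        intro T hT
        rcases List.mem_cons.mp hT with rfl | h
        · show U.1 + V.1 + (U.2.1 + V.2.1) + (U.2.2 + V.2.2) = 0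
          have : U.1 + V.1 + (U.2.1 + V.2.1) + (U.2.2 + V.2.2) =
            (U.1 + U.2.1 + U.2.2) + (V.1 + V.2.1 + V.2.2) := by abel
          rw [this, hU, hV, add_zero]
        · exact hL' T h
      have z₁ : ∀ T ∈ T₁ :: L', T.1 + T.2.1 + T.2.2 = 0 := by
        intro T hT
        rcases List.mem_cons.mp hT with rfl | h
        · show U.1 + V.2.1 + (U.2.1 + V.2.2) + (U.2.2 + V.1) = 0
          have : U.1 + V.2.1 + (U.2.1 + V.2.2) + (U.2.2 + V.1) =
            (U.1 + U.2.1 + U.2.2) + (V.1 + V.2.1 + V.2.2) := by abel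
          rw [this, hU, hV, add_zero]
        · exact hL' T h
      have z₂ : ∀ T ∈ T₂ :: L', T.1 + T.2.1 + T.2.2 = 0 := by
        intro T hT
        rcases List.mem_cons.mp hT with rfl | h
        · show U.1 + V.2.2 + (U.2.1 + V.1) + (U.2.2 + V.2.1) = 0
          have : U.1 + V.2.2 + (U.2.1 + V.1) + (U.2.2 + V.2.1) =
            (U.1 + U.2.1 + U.2.2) + (V.1 + V.2.1 + V.2.2) := by abel
          rw [this, hU, hV, add_zero]
        · exact hL' T h
      have I₀ := ih (T₀ :: L') (by simp [hlen]) z₀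
      have I₁ := ih (T₁ :: L') (by simp [hlen]) z₁
      have I₂ := ih (T₂ :: L') (by simp [hlen]) z₂
      -- pointwise merge
      have hpt : ∀ x : E, gmax (U :: V :: L') x ≤
          (gmax (T₀ :: L') x + gmax (T₁ :: L') x + gmax (T₂ :: L') x) / 3 := by
        intro x
        have ha : ⟪U.1, x⟫ + ⟪U.2.1, x⟫ + ⟪U.2.2, x⟫ = 0 := by
          rw [← inner_add_left, ← inner_add_left, hU, inner_zero_left]
        have hb : ⟪V.1, x⟫ + ⟪V.2.1, x⟫ + ⟪V.2.2, x⟫ = 0 := by
          rw [← inner_add_left, ← inner_add_left, hV, inner_zero_left]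
        have := merge_le ⟪U.1, x⟫ ⟪U.2.1, x⟫ ⟪U.2.2, x⟫ ⟪V.1, x⟫ ⟪V.2.1, x⟫ ⟪V.2.2, x⟫
          (gmax L' x) ha hb
        simp only [gmax, hT₀, hT₁, hT₂, inner_add_left]
        exact this
      have iA : Integrable (fun x : E => gmax (T₀ :: L') x + gmax (T₁ :: L') x) (stdGaussian E) :=
        (integrable_gmax _).add (integrable_gmax _)
      have iB : Integrable (fun x : E => gmax (T₀ :: L') x + gmax (T₁ :: L') x + gmax (T₂ :: L') x)
          (stdGaussian E) := iA.add (integrable_gmax _)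
      have hint : ∫ x, gmax (U :: V :: L') x ∂(stdGaussian E) ≤
          ((∫ x, gmax (T₀ :: L') x ∂(stdGaussian E)) + (∫ x, gmax (T₁ :: L') x ∂(stdGaussian E)) +
            ∫ x, gmax (T₂ :: L') x ∂(stdGaussian E)) / 3 := by
        calc ∫ x, gmax (U :: V :: L') x ∂(stdGaussian E)
            ≤ ∫ x, (gmax (T₀ :: L') x + gmax (T₁ :: L') x + gmax (T₂ :: L') x) / 3
                ∂(stdGaussian E) := integral_mono (integrable_gmax _) (iB.div_const 3) hpt
          _ = _ := by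
            rw [integral_div, integral_add iA (integrable_gmax _),
              integral_add (integrable_gmax _) (integrable_gmax _)]
      -- energies
      have hen : energy (T₀ :: L') + energy (T₁ :: L') + energy (T₂ :: L') =
          3 * energy (U :: V :: L') := by
        have := energy_merge U.1 U.2.1 U.2.2 V.1 V.2.1 V.2.2 hV
        simp only [energy, hT₀, hT₁, hT₂]
        linarith
      have hc : 0 ≤ 3 / 4 * √(2 / π) := by positivity
      have hsq := sqrt_avg3 (energy_nonneg (T₀ :: L')) (energy_nonneg (T₁ :: L'))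
        (energy_nonneg (T₂ :: L'))
      rw [hen] at hsq
      have hsq' : (√(energy (T₀ :: L')) + √(energy (T₁ :: L')) + √(energy (T₂ :: L'))) / 3 ≤
          √(energy (U :: V :: L')) := by
        have : 3 * energy (U :: V :: L') / 3 = energy (U :: V :: L') := by ring
        rwa [this] at hsq
      calc ∫ x, gmax (U :: V :: L') x ∂(stdGaussian E)
          ≤ ((∫ x, gmax (T₀ :: L') x ∂(stdGaussian E)) +
              (∫ x, gmax (T₁ :: L') x ∂(stdGaussian E)) +
              ∫ x, gmax (T₂ :: L') x ∂(stdGaussian E)) / 3 := hint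
        _ ≤ (3 / 4 * √(2 / π) * √(energy (T₀ :: L')) + 3 / 4 * √(2 / π) * √(energy (T₁ :: L')) +
              3 / 4 * √(2 / π) * √(energy (T₂ :: L'))) / 3 := by linarith
        _ = 3 / 4 * √(2 / π) *
              ((√(energy (T₀ :: L')) + √(energy (T₁ :: L')) + √(energy (T₂ :: L'))) / 3) := by
            ring
        _ ≤ 3 / 4 * √(2 / π) * √(energy (U :: V :: L')) := mul_le_mul_of_nonneg_left hsq' hc

/-- Comparison of a sum of pairings of vectors with first moments of disjoint sets against the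
integral of a common majorant. -/
theorem sum_inner_moment_le {ι : Type*} [Fintype ι] (B : ι → Set E)
    (hB : ∀ i, MeasurableSet (B i)) (hdisj : Pairwise (Function.onFun Disjoint B)) (v : ι → E)
    (G : E → ℝ) (hG : Integrable G (stdGaussian E)) (hG0 : ∀ x, 0 ≤ G x)
    (hv : ∀ i x, ⟪v i, x⟫ ≤ G x) :
    ∑ i, ⟪v i, ∫ x in B i, x ∂(stdGaussian E)⟫ ≤ ∫ x, G x ∂(stdGaussian E) := by
  set γ := stdGaussian E with hγ
  have hid : Integrable (fun x : E => x) γ := IsGaussian.integrable_fun_id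
  have h1 : ∀ i, ⟪v i, ∫ x in B i, x ∂γ⟫ ≤ ∫ x in B i, G x ∂γ := by
    intro i
    rw [← integral_inner hid.integrableOn (v i)]
    exact setIntegral_mono (integrable_inner (v i)).integrableOn hG.integrableOn (hv i)
  calc ∑ i, ⟪v i, ∫ x in B i, x ∂γ⟫ ≤ ∑ i, ∫ x in B i, G x ∂γ :=
        Finset.sum_le_sum fun i _ => h1 i
    _ = ∫ x in ⋃ i, B i, G x ∂γ :=
        (integral_iUnion_fintype hB hdisj (fun i => hG.integrableOn)).symm
    _ ≤ ∫ x, G x ∂γ := setIntegral_le_integral hG (ae_of_all _ hG0)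

theorem energy_ofFn : ∀ (m : ℕ) (f : Fin m → E × E × E),
    energy (List.ofFn f) = ∑ l, (‖(f l).1‖ ^ 2 + ‖(f l).2.1‖ ^ 2 + ‖(f l).2.2‖ ^ 2) := by
  intro m
  induction m with
  | zero => intro f; simp [energy]
  | succ m ih =>
    intro f
    rw [List.ofFn_succ, Fin.sum_univ_succ]
    show ‖(f 0).1‖ ^ 2 + ‖(f 0).2.1‖ ^ 2 + ‖(f 0).2.2‖ ^ 2 + energy (List.ofFn fun i => f i.succ) = _
    rw [ih]

theorem le_sq_of_le_mul_sqrt {F c : ℝ} (hF : 0 ≤ F) (h : F ≤ c * √F) : F ≤ c ^ 2 := by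
  rcases hF.eq_or_lt with h0 | hpos
  · rw [← h0]; positivity
  have hs : 0 < √F := Real.sqrt_pos.mpr hpos
  have h1 : √F * √F ≤ c * √F := by rwa [Real.mul_self_sqrt hF]
  have h2 : √F ≤ c := le_of_mul_le_mul_right h1 hs
  calc F = √F ^ 2 := (Real.sq_sqrt hF).symm
    _ ≤ c ^ 2 := pow_le_pow_left₀ hs.le h2 2

/-- **Zero-sum triples.** If finitely many pairwise disjoint measurable sets are grouped in
triples whose Gaussian first moments add up to zero, the sum of the squared norms of all the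
first moments is at most `9/(8π)`. -/
theorem propeller_zero_sum_triples {m : ℕ} (A : Fin m → Fin 3 → Set E)
    (hA : ∀ l a, MeasurableSet (A l a))
    (hdisj : Pairwise (Function.onFun Disjoint (fun p : Fin m × Fin 3 => A p.1 p.2)))
    (hzero : ∀ l, (∫ x in A l 0, x ∂(stdGaussian E)) + (∫ x in A l 1, x ∂(stdGaussian E)) +
      (∫ x in A l 2, x ∂(stdGaussian E)) = 0) :
    ∑ l, ∑ a, ‖∫ x in A l a, x ∂(stdGaussian E)‖ ^ 2 ≤ 9 / (8 * π) := by
  set γ := stdGaussian E with hγ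
  set z : Fin m → Fin 3 → E := fun l a => ∫ x in A l a, x ∂γ with hz
  set f : Fin m → E × E × E := fun l => (z l 0, z l 1, z l 2) with hf
  set L : List (E × E × E) := List.ofFn f with hL
  set F : ℝ := ∑ l, ∑ a, ‖z l a‖ ^ 2 with hFdef
  have hF0 : 0 ≤ F := Finset.sum_nonneg fun l _ => Finset.sum_nonneg fun a _ => by positivity
  have hen : energy L = F := by
    rw [hL, energy_ofFn]
    refine Finset.sum_congr rfl fun l _ => ?_
    rw [Fin.sum_univ_three]
  have hmem : ∀ l, f l ∈ L := fun l => by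
    rw [hL, List.mem_ofFn]
    exact ⟨l, rfl⟩
  have hv : ∀ (p : Fin m × Fin 3) (x : E), ⟪z p.1 p.2, x⟫ ≤ gmax L x := by
    rintro ⟨l, a⟩ x
    obtain ⟨h0, h1, h2⟩ := le_gmax (hmem l) x
    fin_cases a
    · exact h0
    · exact h1
    · exact h2
  have h1 := sum_inner_moment_le (fun p : Fin m × Fin 3 => A p.1 p.2) (fun p => hA p.1 p.2) hdisj
    (fun p => z p.1 p.2) (gmax L) (integrable_gmax L) (gmax_nonneg L) hv
  have h2 : ∑ p : Fin m × Fin 3, ⟪z p.1 p.2, ∫ x in A p.1 p.2, x ∂γ⟫ = F := by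
    rw [Fintype.sum_prod_type]
    refine Finset.sum_congr rfl fun l _ => Finset.sum_congr rfl fun a _ => ?_
    exact real_inner_self_eq_norm_sq _
  have h3 := integral_gmax_le (E := E) m L (by simp [hL]) (by
    intro T hT
    rw [hL, List.mem_ofFn] at hT
    obtain ⟨l, rfl⟩ := hT
    exact hzero l)
  rw [hen] at h3
  have h4 : F ≤ 3 / 4 * √(2 / π) * √F := by
    calc F = ∑ p : Fin m × Fin 3, ⟪z p.1 p.2, ∫ x in A p.1 p.2, x ∂γ⟫ := h2.symm
      _ ≤ ∫ x, gmax L x ∂γ := h1
      _ ≤ 3 / 4 * √(2 / π) * √F := h3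
  have h5 := le_sq_of_le_mul_sqrt hF0 h4
  have h6 : (3 / 4 * √(2 / π)) ^ 2 = 9 / (8 * π) := by
    rw [mul_pow, Real.sq_sqrt (by positivity)]
    field_simp
    ring
  rw [h6] at h5
  exact h5

/-- Pointwise maximum of the absolute values of the linear functionals of a list of vectors. -/
noncomputable def gmax2 : List E → E → ℝ
  | [], _ => 0
  | u :: L, x => max |⟪u, x⟫| (gmax2 L x)

/-- Sum of the squared norms of a list of vectors. -/
noncomputable def energy2 : List E → ℝ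
  | [] => 0
  | u :: L => ‖u‖ ^ 2 + energy2 L

theorem gmax2_nonneg (L : List E) (x : E) : 0 ≤ gmax2 L x := by
  induction L with
  | nil => exact le_rfl
  | cons u L ih => exact le_max_of_le_right ih

theorem energy2_nonneg (L : List E) : 0 ≤ energy2 L := by
  induction L with
  | nil => exact le_rfl
  | cons u L ih =>
    show 0 ≤ ‖u‖ ^ 2 + energy2 L
    positivity

theorem integrable_gmax2 (L : List E) : Integrable (gmax2 L) (stdGaussian E) := by
  induction L with
  | nil => exact integrable_zero _ _ _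
  | cons u L ih => exact (integrable_inner u).abs.sup ih

theorem le_gmax2 {L : List E} {u : E} (hu : u ∈ L) (x : E) : |⟪u, x⟫| ≤ gmax2 L x := by
  induction L with
  | nil => simp at hu
  | cons w L ih =>
    rcases List.mem_cons.mp hu with rfl | h
    · exact le_max_left _ _
    · exact le_max_of_le_right (ih h)

theorem merge2_le (a b R : ℝ) :
    max |a| (max |b| R) ≤ (max |a + b| R + max |a - b| R) / 2 := by
  have p1 : |a + b| ≤ max |a + b| R := le_max_left _ _
  have p2 : R ≤ max |a + b| R := le_max_right _ _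
  have q1 : |a - b| ≤ max |a - b| R := le_max_left _ _
  have q2 : R ≤ max |a - b| R := le_max_right _ _
  have ha : |a| ≤ (|a + b| + |a - b|) / 2 := by
    have : |(a + b) + (a - b)| ≤ |a + b| + |a - b| := abs_add_le _ _
    have e : (a + b) + (a - b) = 2 * a := by ring
    rw [e, abs_mul, abs_two] at this
    linarith
  have hb : |b| ≤ (|a + b| + |a - b|) / 2 := by
    have : |(a + b) - (a - b)| ≤ |a + b| + |a - b| := abs_sub _ _
    have e : (a + b) - (a - b) = 2 * b := by ring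
    rw [e, abs_mul, abs_two] at this
    linarith
  refine max_le ?_ (max_le ?_ ?_) <;> linarith

theorem sqrt_avg2 {p q : ℝ} (hp : 0 ≤ p) (hq : 0 ≤ q) :
    (√p + √q) / 2 ≤ √((p + q) / 2) := by
  apply Real.le_sqrt_of_sq_le
  have e1 := Real.sq_sqrt hp
  have e2 := Real.sq_sqrt hq
  nlinarith [sq_nonneg (√p - √q)]

/-- For a list of vectors, the Gaussian mean of the maximum of the absolute values of the
linear functionals is at most `√(2/π)` times the square root of the energy. -/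
theorem integral_gmax2_le : ∀ (n : ℕ) (L : List E), L.length = n →
    ∫ x, gmax2 L x ∂(stdGaussian E) ≤ √(2 / π) * √(energy2 L) := by
  intro n
  induction n with
  | zero =>
    intro L hL
    rw [List.length_eq_zero_iff] at hL
    subst hL
    simp [gmax2, energy2]
  | succ n ih =>
    intro L hL
    match L, hL with
    | [u], _ =>
      have e1 : ∀ x : E, gmax2 [u] x = |⟪u, x⟫| := by
        intro x
        show max |⟪u, x⟫| 0 = _
        exact max_eq_left (abs_nonneg _)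
      simp_rw [e1]
      have e2 : energy2 [u] = ‖u‖ ^ 2 := by
        show ‖u‖ ^ 2 + 0 = _
        ring
      rw [e2, integral_abs_inner, Real.sqrt_sq (norm_nonneg u)]
    | u :: v :: L', hL =>
      have hlen : L'.length + 1 = n := by
        simp only [List.length_cons] at hL
        omega
      have I₀ := ih ((u + v) :: L') (by simp [hlen])
      have I₁ := ih ((u - v) :: L') (by simp [hlen])
      have hpt : ∀ x : E, gmax2 (u :: v :: L') x ≤
          (gmax2 ((u + v) :: L') x + gmax2 ((u - v) :: L') x) / 2 := by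
        intro x
        have := merge2_le ⟪u, x⟫ ⟪v, x⟫ (gmax2 L' x)
        simp only [gmax2, inner_add_left, inner_sub_left]
        exact this
      have iA : Integrable (fun x : E => gmax2 ((u + v) :: L') x + gmax2 ((u - v) :: L') x)
          (stdGaussian E) := (integrable_gmax2 _).add (integrable_gmax2 _)
      have hint : ∫ x, gmax2 (u :: v :: L') x ∂(stdGaussian E) ≤
          ((∫ x, gmax2 ((u + v) :: L') x ∂(stdGaussian E)) +
            ∫ x, gmax2 ((u - v) :: L') x ∂(stdGaussian E)) / 2 := by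
        calc ∫ x, gmax2 (u :: v :: L') x ∂(stdGaussian E)
            ≤ ∫ x, (gmax2 ((u + v) :: L') x + gmax2 ((u - v) :: L') x) / 2 ∂(stdGaussian E) :=
              integral_mono (integrable_gmax2 _) (iA.div_const 2) hpt
          _ = _ := by
            rw [integral_div, integral_add (integrable_gmax2 _) (integrable_gmax2 _)]
      have hen : energy2 ((u + v) :: L') + energy2 ((u - v) :: L') =
          2 * energy2 (u :: v :: L') := by
        simp only [energy2, norm_add_sq_real, norm_sub_sq_real]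
        ring
      have hc : 0 ≤ √(2 / π) := Real.sqrt_nonneg _
      have hsq := sqrt_avg2 (energy2_nonneg ((u + v) :: L')) (energy2_nonneg ((u - v) :: L'))
      rw [hen] at hsq
      have hsq' : (√(energy2 ((u + v) :: L')) + √(energy2 ((u - v) :: L'))) / 2 ≤
          √(energy2 (u :: v :: L')) := by
        have : 2 * energy2 (u :: v :: L') / 2 = energy2 (u :: v :: L') := by ring
        rwa [this] at hsq
      calc ∫ x, gmax2 (u :: v :: L') x ∂(stdGaussian E)
          ≤ ((∫ x, gmax2 ((u + v) :: L') x ∂(stdGaussian E)) +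
              ∫ x, gmax2 ((u - v) :: L') x ∂(stdGaussian E)) / 2 := hint
        _ ≤ (√(2 / π) * √(energy2 ((u + v) :: L')) +
              √(2 / π) * √(energy2 ((u - v) :: L'))) / 2 := by linarith
        _ = √(2 / π) * ((√(energy2 ((u + v) :: L')) + √(energy2 ((u - v) :: L'))) / 2) := by ring
        _ ≤ √(2 / π) * √(energy2 (u :: v :: L')) := mul_le_mul_of_nonneg_left hsq' hc

theorem energy2_ofFn : ∀ (m : ℕ) (f : Fin m → E),
    energy2 (List.ofFn f) = ∑ l, ‖f l‖ ^ 2 := by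
  intro m
  induction m with
  | zero => intro f; simp [energy2]
  | succ m ih =>
    intro f
    rw [List.ofFn_succ, Fin.sum_univ_succ]
    show ‖f 0‖ ^ 2 + energy2 (List.ofFn fun i => f i.succ) = _
    rw [ih]

/-- **Antipodal pairs.** If finitely many pairwise disjoint measurable sets are grouped in
pairs with opposite Gaussian first moments, the sum of the squared norms of all the first
moments is at most `1/π`. -/
theorem propeller_antipodal_pairs {m : ℕ} (A : Fin m → Fin 2 → Set E)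
    (hA : ∀ l a, MeasurableSet (A l a))
    (hdisj : Pairwise (Function.onFun Disjoint (fun p : Fin m × Fin 2 => A p.1 p.2)))
    (hanti : ∀ l, (∫ x in A l 1, x ∂(stdGaussian E)) = -∫ x in A l 0, x ∂(stdGaussian E)) :
    ∑ l, ∑ a, ‖∫ x in A l a, x ∂(stdGaussian E)‖ ^ 2 ≤ 1 / π := by
  set γ := stdGaussian E with hγ
  set z : Fin m → E := fun l => ∫ x in A l 0, x ∂γ with hz
  set L : List E := List.ofFn z with hL
  set F : ℝ := ∑ l, ∑ a, ‖∫ x in A l a, x ∂γ‖ ^ 2 with hFdef
  have hF0 : 0 ≤ F := Finset.sum_nonneg fun l _ => Finset.sum_nonneg fun a _ => by positivity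
  have hF2 : F = 2 * ∑ l, ‖z l‖ ^ 2 := by
    rw [hFdef, Finset.mul_sum]
    refine Finset.sum_congr rfl fun l _ => ?_
    rw [Fin.sum_univ_two, hanti l, norm_neg]
    ring
  have hen : energy2 L = F / 2 := by
    rw [hL, energy2_ofFn, hF2]
    ring
  have hmem : ∀ l, z l ∈ L := fun l => by
    rw [hL, List.mem_ofFn]
    exact ⟨l, rfl⟩
  set v : Fin m × Fin 2 → E := fun p => ∫ x in A p.1 p.2, x ∂γ with hvdef
  have hv : ∀ (p : Fin m × Fin 2) (x : E), ⟪v p, x⟫ ≤ gmax2 L x := by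
    rintro ⟨l, a⟩ x
    have h := le_gmax2 (hmem l) x
    fin_cases a
    · exact (le_abs_self _).trans h
    · show ⟪∫ x in A l 1, x ∂γ, x⟫ ≤ gmax2 L x
      rw [hanti l, inner_neg_left]
      exact (neg_le_abs _).trans h
  have h1 := sum_inner_moment_le (fun p : Fin m × Fin 2 => A p.1 p.2) (fun p => hA p.1 p.2) hdisj
    v (gmax2 L) (integrable_gmax2 L) (gmax2_nonneg L) hv
  have h2 : ∑ p : Fin m × Fin 2, ⟪v p, ∫ x in A p.1 p.2, x ∂γ⟫ = F := by
    rw [Fintype.sum_prod_type]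
    refine Finset.sum_congr rfl fun l _ => Finset.sum_congr rfl fun a _ => ?_
    exact real_inner_self_eq_norm_sq _
  have h3 := integral_gmax2_le (E := E) m L (by simp [hL])
  rw [hen] at h3
  have h4 : F ≤ √(2 / π) / √2 * √F := by
    calc F = ∑ p : Fin m × Fin 2, ⟪v p, ∫ x in A p.1 p.2, x ∂γ⟫ := h2.symm
      _ ≤ ∫ x, gmax2 L x ∂γ := h1
      _ ≤ √(2 / π) * √(F / 2) := h3
      _ = √(2 / π) / √2 * √F := by
        rw [Real.sqrt_div hF0]
        ring
  have h5 := le_sq_of_le_mul_sqrt hF0 h4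
  have h6 : (√(2 / π) / √2) ^ 2 = 1 / π := by
    rw [div_pow, Real.sq_sqrt (by positivity), Real.sq_sqrt (by norm_num)]
    field_simp
  rw [h6] at h5
  exact h5

end Vale.Agent.H61.P226
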